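import Vale.Agent.P022.H790.A3

/-!
# The discriminant form modulo two

The `q`-expansion of Mathlib's `Δ` has integer coefficients and its reduction modulo two is
`D = Σ q^(n²)`, `n > 0` odd; `E₄` and `E₆` are `1` modulo two.
-/

namespace Vale.Agent.P022.H790.A

open PowerSeries UpperHalfPlane ModularForm ModularFormClass MatrixGroups EisensteinSeries

/-! ### Parities -/

/-- The number of divisors is odd for squares only. -/
theorem card_div {n : ℕ} (hn : n ≠ 0) :
    ((n.divisors.card : ℕ) : ZMod 2) = if IsSquare n then 1 else 0 := by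
  have h1 : ∑ d ∈ n.divisors with ¬ d * d = n, (1 : ZMod 2) = 0 := by
    refine Finset.sum_involution (fun d _ => n / d) ?_ ?_ ?_ ?_
    · intro a _
      decide
    · intro d hd _ h
      rw [Finset.mem_filter, Nat.mem_divisors] at hd
      apply hd.2
      obtain ⟨⟨⟨c, hc⟩, _⟩, _⟩ := hd
      have hd0 : 0 < d := Nat.pos_of_ne_zero (by rintro rfl; simp at hc; exact hn hc)
      rw [hc, Nat.mul_div_cancel_left _ hd0] at h
      rw [h] at hc
      exact hc.symm
    · intro d hd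
      rw [Finset.mem_filter, Nat.mem_divisors] at hd ⊢
      obtain ⟨⟨⟨c, hc⟩, _⟩, h2⟩ := hd
      have hd0 : 0 < d := Nat.pos_of_ne_zero (by rintro rfl; simp at hc; exact hn hc)
      rw [hc, Nat.mul_div_cancel_left _ hd0]
      refine ⟨⟨Dvd.intro_left d rfl, ?_⟩, ?_⟩
      · rw [← hc]; exact hn
      · intro h
        have hc0 : 0 < c := Nat.pos_of_ne_zero (by rintro rfl; simp at hc; exact hn hc)
        have : c = d := Nat.eq_of_mul_eq_mul_right hc0 h
        subst this
        exact h2 hc.symm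
    · intro d hd
      rw [Finset.mem_filter, Nat.mem_divisors] at hd
      exact Nat.div_div_self hd.1.1 hn
  have h2 : ((n.divisors.card : ℕ) : ZMod 2) = ∑ d ∈ n.divisors with d * d = n, (1 : ZMod 2) := by
    have h3 := Finset.sum_filter_add_sum_filter_not n.divisors (fun d => d * d = n)
      (fun _ => (1 : ZMod 2))
    rw [h1, add_zero] at h3
    rw [h3, Finset.sum_const, nsmul_eq_mul, mul_one]
  rw [h2]
  by_cases hs : IsSquare n
  · rw [if_pos hs]
    obtain ⟨a, ha⟩ := hs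
    have h4 : ({d ∈ n.divisors | d * d = n}) = {a} := by
      ext d
      rw [Finset.mem_filter, Nat.mem_divisors, Finset.mem_singleton]
      constructor
      · rintro ⟨_, h⟩
        rw [ha] at h
        exact Nat.mul_self_inj.1 h
      · rintro rfl
        exact ⟨⟨⟨d, ha⟩, hn⟩, ha.symm⟩
    rw [h4, Finset.sum_singleton]
  · rw [if_neg hs]
    refine Finset.sum_eq_zero fun d hd => ?_
    rw [Finset.mem_filter] at hd
    exact absurd ⟨d, hd.2.symm⟩ hs

/-- The sum of the divisors, modulo two. -/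
def sd (n : ℕ) : ZMod 2 := ∑ d ∈ n.divisors, (d : ZMod 2)

open Classical in
theorem sd_odd {n : ℕ} (hn : Odd n) : sd n = if ∃ a : ℕ, Odd a ∧ n = a ^ 2 then 1 else 0 := by
  classical
  have h0 : n ≠ 0 := by rintro rfl; simp at hn
  have h1 : sd n = ((n.divisors.card : ℕ) : ZMod 2) := by
    rw [sd, Finset.card_eq_sum_ones, Nat.cast_sum]
    refine Finset.sum_congr rfl fun d hd => ?_
    have : Odd d := Odd.of_dvd_nat hn (Nat.dvd_of_mem_divisors hd)
    rw [Nat.cast_one]
    exact (ZMod.natCast_eq_one_iff_odd).2 this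
  rw [h1, card_div h0]
  by_cases hs : IsSquare n
  · obtain ⟨a, ha⟩ := hs
    rw [if_pos ⟨a, ha⟩, if_pos]
    refine ⟨a, ?_, by rw [ha]; ring⟩
    rw [ha] at hn
    exact (Nat.odd_mul.1 hn).1
  · rw [if_neg hs, if_neg]
    rintro ⟨a, _, h⟩
    exact hs ⟨a, by rw [h]; ring⟩

theorem sd_two_mul (m : ℕ) : sd (2 * m) = sd m := by
  rcases Nat.eq_zero_or_pos m with rfl | hm
  · rfl
  unfold sd
  have hsub : m.divisors ⊆ (2 * m).divisors :=
    Nat.divisors_subset_of_dvd (by omega) (Dvd.intro_left 2 rfl)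
  rw [← Finset.sum_subset hsub]
  intro d hd hd'
  rw [Nat.mem_divisors] at hd
  rw [ZMod.natCast_eq_zero_iff]
  by_contra h2
  apply hd'
  rw [Nat.mem_divisors]
  refine ⟨?_, hm.ne'⟩
  have : Nat.Coprime d 2 := Nat.coprime_two_right.2 (Nat.not_even_iff_odd.1
    fun h => h2 h.two_dvd)
  exact this.dvd_of_dvd_mul_left hd.1

/-- The integer `(5 d³ + 7 d⁵) / 12`. -/
def gg (d : ℕ) : ℕ := (5 * d ^ 3 + 7 * d ^ 5) / 12

theorem gg_mul (d : ℕ) : 12 * gg d = 5 * d ^ 3 + 7 * d ^ 5 := by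
  have h : (5 * d ^ 3 + 7 * d ^ 5) % 12 = 0 := by
    have h1 : (5 * d ^ 3 + 7 * d ^ 5) % 12 = (5 * (d % 12) ^ 3 + 7 * (d % 12) ^ 5) % 12 := by
      simp [Nat.add_mod, Nat.mul_mod, Nat.pow_mod]
    rw [h1]
    have h2 : d % 12 < 12 := Nat.mod_lt _ (by norm_num)
    generalize d % 12 = r at h2
    interval_cases r <;> rfl
  unfold gg
  omega

theorem gg_parity (d : ℕ) : gg d % 2 = d % 2 := by
  have h := gg_mul d
  have h0 : (5 * d ^ 3 + 7 * d ^ 5) % 24 = (12 * (d % 2)) % 24 := by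
    have h1 : (5 * d ^ 3 + 7 * d ^ 5) % 24 = (5 * (d % 24) ^ 3 + 7 * (d % 24) ^ 5) % 24 := by
      simp [Nat.add_mod, Nat.mul_mod, Nat.pow_mod]
    have h3 : d % 2 = (d % 24) % 2 := by omega
    rw [h1, h3]
    have h2 : d % 24 < 24 := Nat.mod_lt _ (by norm_num)
    generalize d % 24 = r at h2
    interval_cases r <;> rfl
  omega

theorem gg_cast (d : ℕ) : ((gg d : ℕ) : ZMod 2) = (d : ZMod 2) := by
  rw [ZMod.natCast_eq_natCast_iff]
  exact gg_parity d

/-! ### The integral series -/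

/-- `Σ σ_k(n) q^n`. -/
def sg (k : ℕ) : PowerSeries ℤ := PowerSeries.mk fun n => ∑ d ∈ n.divisors, (d : ℤ) ^ k

/-- `Σ (5 σ_3(n) + 7 σ_5(n)) / 12 q^n`. -/
def gs : PowerSeries ℤ := PowerSeries.mk fun n => ∑ d ∈ n.divisors, (gg d : ℤ)

theorem gs_mul : 12 * gs = 5 * sg 3 + 7 * sg 5 := by
  have e12 : (12 : PowerSeries ℤ) = PowerSeries.C (12 : ℤ) := by rfl
  have e5 : (5 : PowerSeries ℤ) = PowerSeries.C (5 : ℤ) := by rfl
  have e7 : (7 : PowerSeries ℤ) = PowerSeries.C (7 : ℤ) := by rfl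
  ext n
  rw [e12, e5, e7, map_add, coeff_C_mul, coeff_C_mul, coeff_C_mul, gs, sg, sg, coeff_mk, coeff_mk,
    coeff_mk, Finset.mul_sum, Finset.mul_sum, Finset.mul_sum, ← Finset.sum_add_distrib]
  refine Finset.sum_congr rfl fun d _ => ?_
  exact_mod_cast gg_mul d

/-- `E₄` with integer coefficients. -/
noncomputable def E4Z : PowerSeries ℤ := 1 + 240 * sg 3

/-- `E₆` with integer coefficients. -/
noncomputable def E6Z : PowerSeries ℤ := 1 - 504 * sg 5

/-- `Δ` with integer coefficients. -/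
noncomputable def DZ : PowerSeries ℤ := gs + 100 * sg 3 ^ 2 + 8000 * sg 3 ^ 3 - 147 * sg 5 ^ 2

theorem DZ_mul : 1728 * DZ = E4Z ^ 3 - E6Z ^ 2 := by
  unfold DZ E4Z E6Z
  linear_combination 144 * gs_mul

/-- Reduction modulo two. -/
noncomputable def red : PowerSeries ℤ →+* PowerSeries (ZMod 2) :=
  PowerSeries.map (Int.castRingHom (ZMod 2))

theorem red_two : red 2 = 0 := by
  rw [map_ofNat]
  exact two_zero

theorem red_E4Z : red E4Z = 1 := by
  unfold E4Z
  rw [show (240 : PowerSeries ℤ) = 2 * 120 by norm_num, map_add, map_mul, map_mul, red_two,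
    map_one]
  ring

theorem red_E6Z : red E6Z = 1 := by
  unfold E6Z
  rw [show (504 : PowerSeries ℤ) = 2 * 252 by norm_num, map_sub, map_mul, map_mul, red_two,
    map_one]
  ring

theorem coeff_red_gs (n : ℕ) : coeff n (red gs) = sd n := by
  rw [red, coeff_map, gs, coeff_mk, map_sum, sd]
  refine Finset.sum_congr rfl fun d _ => ?_
  rw [← gg_cast d]
  simp

theorem coeff_red_sg (n : ℕ) : coeff n (red (sg 5)) = sd n := by
  rw [red, coeff_map, sg, coeff_mk, map_sum, sd]
  refine Finset.sum_congr rfl fun d _ => ?_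
  have h : ∀ x : ZMod 2, x ^ 5 = x := by decide
  simp [h]

/-- `Δ` modulo two. -/
theorem red_DZ : red DZ = D := by
  have h1 : red DZ = red gs + red (sg 5) ^ 2 := by
    unfold DZ
    rw [show (100 : PowerSeries ℤ) = 2 * 50 by norm_num,
      show (8000 : PowerSeries ℤ) = 2 * 4000 by norm_num,
      show (147 : PowerSeries ℤ) = 2 * 74 - 1 by norm_num]
    simp only [map_add, map_sub, map_mul, map_pow, red_two, map_one]
    linear_combination (-(red (sg 5)) ^ 2) * two_zero + red (sg 5) ^ 2 * two_zero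
  rw [h1, sq_eq]
  ext n
  rw [map_add, coeff_dil, coeff_red_gs, D, coeff_mk]
  rcases Nat.even_or_odd n with h | h
  · obtain ⟨m, rfl⟩ := h.two_dvd
    rw [if_pos (Dvd.intro m rfl), Nat.mul_div_cancel_left _ (by norm_num), coeff_red_sg, sd_two_mul,
      if_neg]
    · exact CharTwo.add_self_eq_zero _
    · rintro ⟨a, ha, h2⟩
      have h3 : Odd (a ^ 2) := ha.pow
      rw [← h2] at h3
      exact (Nat.not_odd_iff_even.2 h) h3
  · rw [if_neg (fun hc => (Nat.not_even_iff_odd.2 h) (even_iff_two_dvd.2 hc)), add_zero,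
      sd_odd h]

/-! ### The modular forms -/

/-- The integral series inside the complex ones. -/
noncomputable def toC : PowerSeries ℤ →+* PowerSeries ℂ :=
  PowerSeries.map (Int.castRingHom ℂ)

theorem qExp_E4 : qExpansion 1 E₄ = toC E4Z := by
  ext n
  rw [E_qExpansion_coeff _ ⟨2, rfl⟩, toC, coeff_map, E4Z]
  have e : (240 : PowerSeries ℤ) = PowerSeries.C (240 : ℤ) := by rfl
  rw [e, map_add, coeff_C_mul, coeff_one, sg, coeff_mk]
  by_cases h : n = 0
  · subst h
    simp
  · rw [if_neg h, if_neg h, show bernoulli 4 = -1 / 30 by decide +kernel]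
    norm_num [ArithmeticFunction.sigma_apply]

theorem qExp_E6 : qExpansion 1 E₆ = toC E6Z := by
  ext n
  rw [E_qExpansion_coeff _ ⟨3, rfl⟩, toC, coeff_map, E6Z]
  have e : (504 : PowerSeries ℤ) = PowerSeries.C (504 : ℤ) := by rfl
  rw [e, map_sub, coeff_C_mul, coeff_one, sg, coeff_mk]
  by_cases h : n = 0
  · subst h
    simp
  · rw [if_neg h, if_neg h, show bernoulli 6 = 1 / 42 by decide +kernel]
    norm_num [ArithmeticFunction.sigma_apply]

theorem qExp_disc : qExpansion 1 (CuspForm.discriminant : CuspForm 𝒮ℒ 12) = toC DZ := by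
  have h1 : ((1728 : ℂ) • (CuspForm.discriminant : CuspForm 𝒮ℒ 12) : ℍ → ℂ) =
      ⇑(E₄.pow 3) - ⇑(E₆.pow 2) := by
    ext z
    have := discriminant_eq_E₄_cube_sub_E₆_sq z
    simp only [Pi.smul_apply, smul_eq_mul, Pi.sub_apply, ModularForm.coe_pow, Pi.pow_apply,
      CuspForm.coe_discriminant]
    rw [this]
    ring
  have h2 : qExpansion 1 ((1728 : ℂ) • (CuspForm.discriminant : CuspForm 𝒮ℒ 12) : ℍ → ℂ) =
      (1728 : ℂ) • qExpansion 1 (CuspForm.discriminant : CuspForm 𝒮ℒ 12) :=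
    ModularForm.qExpansion_smul one_pos one_mem_strictPeriods_SL (1728 : ℂ)
      (CuspForm.discriminant : CuspForm 𝒮ℒ 12)
  have h3 : qExpansion 1 (⇑(E₄.pow 3) - ⇑(E₆.pow 2)) = toC (E4Z ^ 3 - E6Z ^ 2) := by
    rw [ModularForm.qExpansion_sub one_pos one_mem_strictPeriods_SL,
      ModularForm.qExpansion_pow one_pos one_mem_strictPeriods_SL,
      ModularForm.qExpansion_pow one_pos one_mem_strictPeriods_SL, qExp_E4, qExp_E6, map_sub,
      map_pow, map_pow]
  rw [h1, h3, ← DZ_mul, map_mul, map_ofNat] at h2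
  ext n
  have h4 := congrArg (coeff n) h2
  rw [coeff_smul, show (1728 : PowerSeries ℂ) = PowerSeries.C (1728 : ℂ) by rfl, coeff_C_mul,
    smul_eq_mul] at h4
  exact (mul_left_cancel₀ (by norm_num) h4).symm

/-- **Integral forms of level one which are `D^n` modulo two**, in all even weights `k ≥ 12 n`
except `12 n + 2`. -/
theorem exists_form (n a b : ℕ) : ∃ (F : ModularForm 𝒮ℒ ((n : ℤ) * 12 + ((a : ℤ) * 4 + (b : ℤ) * 6)))
    (Z : PowerSeries ℤ), qExpansion 1 F = toC Z ∧ red Z = D ^ n := by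
  refine ⟨((CuspForm.discriminant : CuspForm 𝒮ℒ 12) : ModularForm 𝒮ℒ 12).pow n |>.mul
    ((E₄.pow a).mul (E₆.pow b)), DZ ^ n * (E4Z ^ a * E6Z ^ b), ?_, ?_⟩
  · rw [ModularForm.qExpansion_mul one_pos one_mem_strictPeriods_SL,
      ModularForm.qExpansion_mul one_pos one_mem_strictPeriods_SL,
      ModularForm.qExpansion_pow one_pos one_mem_strictPeriods_SL,
      ModularForm.qExpansion_pow one_pos one_mem_strictPeriods_SL,
      ModularForm.qExpansion_pow one_pos one_mem_strictPeriods_SL, qExp_E4, qExp_E6, map_mul,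
      map_mul, map_pow, map_pow, map_pow, ← qExp_disc]
    rfl
  · rw [map_mul, map_mul, map_pow, map_pow, map_pow, red_DZ, red_E4Z, red_E6Z]
    simp

end Vale.Agent.P022.H790.A
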