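import Mathlib

/-!
# The Hecke operators modulo 2 on the powers of `Δ`

`D = Σ q^(n²)`, `n > 0` odd, in `F_2[[q]]` is the reduction of `Δ`.  The operator
`hec l f = U l f + f(q^l)`, `U l f = Σ a(l n) q^n`, satisfies on the powers of `D` the linear
recursions of `T_3` and `T_5`, as soon as `D` and `D(q^l)` are related by the modular equations
`(D + D(q^3))^4 = D D(q^3)` and `(D + D(q^5))^6 = D D(q^5)`.
-/

namespace Vale.Agent.P022.H790.A

open PowerSeries

open Classical in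
/-- `Σ q^(n²)`, `n > 0` odd, modulo `2`. -/
noncomputable def D : PowerSeries (ZMod 2) :=
  PowerSeries.mk fun n => if ∃ a : ℕ, Odd a ∧ n = a ^ 2 then 1 else 0

/-- `f(q^l)`. -/
noncomputable def dil (l : ℕ) (f : PowerSeries (ZMod 2)) : PowerSeries (ZMod 2) :=
  PowerSeries.mk fun n => if l ∣ n then coeff (n / l) f else 0

/-- `Σ a(l n) q^n`. -/
noncomputable def U (l : ℕ) (f : PowerSeries (ZMod 2)) : PowerSeries (ZMod 2) :=
  PowerSeries.mk fun n => coeff (l * n) f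

/-- The Hecke operator modulo `2`. -/
noncomputable def hec (l : ℕ) (f : PowerSeries (ZMod 2)) : PowerSeries (ZMod 2) :=
  U l f + dil l f

theorem coeff_dil (l n : ℕ) (f : PowerSeries (ZMod 2)) :
    coeff n (dil l f) = if l ∣ n then coeff (n / l) f else 0 := coeff_mk _ _

theorem coeff_U (l n : ℕ) (f : PowerSeries (ZMod 2)) : coeff n (U l f) = coeff (l * n) f :=
  coeff_mk _ _

theorem coeff_hec (l n : ℕ) (f : PowerSeries (ZMod 2)) :
    coeff n (hec l f) = coeff (l * n) f + if l ∣ n then coeff (n / l) f else 0 := by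
  rw [hec, map_add, coeff_U, coeff_dil]

theorem dil_eq_expand (l : ℕ) (hl : l ≠ 0) (f : PowerSeries (ZMod 2)) :
    dil l f = expand l hl f := by
  ext n
  rw [coeff_dil, coeff_expand]

theorem dil_mul {l : ℕ} (hl : l ≠ 0) (f g : PowerSeries (ZMod 2)) :
    dil l (f * g) = dil l f * dil l g := by
  simp only [dil_eq_expand l hl, map_mul]

theorem dil_pow {l : ℕ} (hl : l ≠ 0) (f : PowerSeries (ZMod 2)) (n : ℕ) :
    dil l (f ^ n) = dil l f ^ n := by
  simp only [dil_eq_expand l hl, map_pow]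

theorem dil_add (l : ℕ) (f g : PowerSeries (ZMod 2)) : dil l (f + g) = dil l f + dil l g := by
  ext n
  simp only [coeff_dil, map_add]
  split_ifs <;> simp

theorem dil_one {l : ℕ} (hl : l ≠ 0) : dil l 1 = 1 := by
  rw [dil_eq_expand l hl, map_one]

theorem U_add (l : ℕ) (f g : PowerSeries (ZMod 2)) : U l (f + g) = U l f + U l g := by
  ext n
  simp only [coeff_U, map_add]

theorem U_one {l : ℕ} (hl : l ≠ 0) : U l 1 = 1 := by
  ext n
  rw [coeff_U, coeff_one, coeff_one]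
  by_cases h : n = 0
  · simp [h]
  · rw [if_neg h, if_neg (Nat.mul_ne_zero hl h)]

theorem U_dil_mul {l : ℕ} (hl : l ≠ 0) (g h : PowerSeries (ZMod 2)) :
    U l (dil l g * h) = g * U l h := by
  ext n
  rw [coeff_U, coeff_mul, coeff_mul]
  symm
  refine Finset.sum_of_injOn (fun p => (l * p.1, l * p.2)) ?_ ?_ ?_ ?_
  · rintro ⟨a, b⟩ - ⟨c, d⟩ - h
    simp only [Prod.mk.injEq] at h
    rw [Nat.eq_of_mul_eq_mul_left (Nat.pos_of_ne_zero hl) h.1,
      Nat.eq_of_mul_eq_mul_left (Nat.pos_of_ne_zero hl) h.2]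
  · rintro ⟨a, b⟩ h
    rw [Finset.mem_coe, Finset.HasAntidiagonal.mem_antidiagonal] at h
    rw [Finset.mem_coe, Finset.HasAntidiagonal.mem_antidiagonal, ← h, mul_add]
  · rintro ⟨a, b⟩ h h'
    rw [Finset.HasAntidiagonal.mem_antidiagonal] at h
    rw [coeff_dil]
    by_cases hd : l ∣ a
    · exfalso
      apply h'
      obtain ⟨c, rfl⟩ := hd
      have hb : l ∣ b := (Nat.dvd_add_right (Dvd.intro c rfl)).1 (h ▸ Dvd.intro n rfl)
      obtain ⟨d, rfl⟩ := hb
      refine ⟨(c, d), ?_, rfl⟩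
      rw [Finset.mem_coe, Finset.HasAntidiagonal.mem_antidiagonal]
      rw [← mul_add] at h
      exact Nat.eq_of_mul_eq_mul_left (Nat.pos_of_ne_zero hl) h
    · simp only [if_neg hd, zero_mul]
  · rintro ⟨a, b⟩ -
    simp only
    rw [coeff_dil, coeff_U, if_pos (Dvd.intro a rfl), Nat.mul_div_cancel_left _
      (Nat.pos_of_ne_zero hl)]

theorem hec_add (l : ℕ) (f g : PowerSeries (ZMod 2)) : hec l (f + g) = hec l f + hec l g := by
  unfold hec
  rw [U_add, dil_add]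
  ring

theorem add_self (f : PowerSeries (ZMod 2)) : f + f = 0 := by
  ext n
  rw [map_add, map_zero]
  exact CharTwo.add_self_eq_zero _

theorem two_zero : (2 : PowerSeries (ZMod 2)) = 0 := by
  have := add_self 1
  rwa [one_add_one_eq_two] at this

theorem hec_one {l : ℕ} (hl : l ≠ 0) : hec l 1 = 0 := by
  rw [hec, U_one hl, dil_one hl, add_self]

/-- The square in characteristic two. -/
theorem sq_eq (f : PowerSeries (ZMod 2)) : f ^ 2 = dil 2 f := by
  ext n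
  rw [pow_two, coeff_mul_eq_coeff_trunc_mul_trunc f f (Nat.lt_succ_self n), ← pow_two,
    ← Polynomial.coe_pow, ← ZMod.expand_card, coeff_dil, Polynomial.coeff_coe,
    Polynomial.coeff_expand (by norm_num)]
  split_ifs with h
  · rw [coeff_trunc, if_pos (by omega)]
  · rfl

theorem U_dil_two {l : ℕ} (hl : Odd l) (f : PowerSeries (ZMod 2)) :
    U l (dil 2 f) = dil 2 (U l f) := by
  ext n
  rw [coeff_U, coeff_dil, coeff_dil, coeff_U]
  have h2 : Nat.Coprime 2 l := (Nat.coprime_two_left).2 hl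
  by_cases h : 2 ∣ n
  · rw [if_pos (h.mul_left l), if_pos h, Nat.mul_div_assoc _ h]
  · rw [if_neg (fun hc => h (h2.dvd_of_dvd_mul_left hc)), if_neg h]

theorem dil_dil (a b : ℕ) (ha : a ≠ 0) (f : PowerSeries (ZMod 2)) :
    dil a (dil b f) = dil (a * b) f := by
  ext n
  rw [coeff_dil, coeff_dil, coeff_dil]
  by_cases h : a ∣ n
  · rw [if_pos h]
    obtain ⟨m, rfl⟩ := h
    rw [Nat.mul_div_cancel_left _ (Nat.pos_of_ne_zero ha),
      Nat.mul_div_mul_left _ _ (Nat.pos_of_ne_zero ha)]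
    simp only [Nat.mul_dvd_mul_iff_left (Nat.pos_of_ne_zero ha)]
  · rw [if_neg h, if_neg (fun hc => h (dvd_of_mul_right_dvd hc))]

theorem hec_sq {l : ℕ} (hl : Odd l) (f : PowerSeries (ZMod 2)) : hec l (f ^ 2) = hec l f ^ 2 := by
  have h0 : l ≠ 0 := fun h => by simp [h] at hl
  rw [sq_eq, sq_eq, hec, hec, dil_add, U_dil_two hl, dil_dil _ _ h0, dil_dil _ _ (by norm_num),
    mul_comm]

theorem hec_D {l : ℕ} (hl : l.Prime) (h2 : l ≠ 2) : hec l D = 0 := by
  ext n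
  rw [coeff_hec, map_zero, D, coeff_mk, coeff_mk]
  have hodd : Odd l := hl.odd_of_ne_two h2
  have key : (∃ a : ℕ, Odd a ∧ l * n = a ^ 2) ↔ (l ∣ n ∧ ∃ a : ℕ, Odd a ∧ n / l = a ^ 2) := by
    constructor
    · rintro ⟨a, ha, h⟩
      have h1 : l ∣ a := hl.dvd_of_dvd_pow (h ▸ Dvd.intro n rfl)
      obtain ⟨b, rfl⟩ := h1
      have h3 : n = l * b ^ 2 := by
        apply Nat.eq_of_mul_eq_mul_left hl.pos
        rw [h]; ring
      refine ⟨h3 ▸ Dvd.intro _ rfl, b, (Nat.odd_mul.1 ha).2, ?_⟩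
      rw [h3, Nat.mul_div_cancel_left _ hl.pos]
    · rintro ⟨⟨m, rfl⟩, a, ha, h⟩
      rw [Nat.mul_div_cancel_left _ hl.pos] at h
      exact ⟨l * a, hodd.mul ha, by rw [h]; ring⟩
  by_cases h : l ∣ n
  · rw [if_pos h]
    by_cases h' : ∃ a : ℕ, Odd a ∧ n / l = a ^ 2
    · rw [if_pos h', if_pos (key.2 ⟨h, h'⟩)]
      decide
    · rw [if_neg h', if_neg (fun hc => h' (key.1 hc).2), add_zero]
  · rw [if_neg h, if_neg (fun hc => h (key.1 hc).1), add_zero]

/-! ### The recursions -/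

theorem hec3_rec (L3 : (D + dil 3 D) ^ 4 = D * dil 3 D) (n : ℕ) :
    hec 3 (D ^ (n + 4)) = D * hec 3 (D ^ (n + 1)) + D ^ 4 * hec 3 (D ^ n) := by
  have h3 : (3 : ℕ) ≠ 0 := by norm_num
  have e : D ^ 4 + dil 3 D ^ 4 = D * dil 3 D := by
    rw [← L3]
    linear_combination (-(2 * D ^ 3 * dil 3 D + 3 * D ^ 2 * dil 3 D ^ 2 +
      2 * D * dil 3 D ^ 3)) * two_zero
  have e1 : D ^ (n + 4) = dil 3 (D ^ 4) * D ^ n + dil 3 D * D ^ (n + 1) := by
    rw [dil_pow h3]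
    linear_combination D ^ n * e - D ^ n * dil 3 D ^ 4 * two_zero
  have e2 : dil 3 (D ^ (n + 4)) = D * dil 3 (D ^ (n + 1)) + D ^ 4 * dil 3 (D ^ n) := by
    rw [dil_pow h3, dil_pow h3, dil_pow h3]
    linear_combination dil 3 D ^ n * e - D ^ 4 * dil 3 D ^ n * two_zero
  rw [hec, e2, e1, U_add, U_dil_mul h3, U_dil_mul h3, hec, hec]
  ring

theorem hec5_rec (L5 : (D + dil 5 D) ^ 6 = D * dil 5 D) (n : ℕ) :
    hec 5 (D ^ (n + 6)) = D * hec 5 (D ^ (n + 1)) + D ^ 2 * hec 5 (D ^ (n + 4)) +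
      D ^ 4 * hec 5 (D ^ (n + 2)) + D ^ 6 * hec 5 (D ^ n) := by
  have h5 : (5 : ℕ) ≠ 0 := by norm_num
  have e : D ^ 6 + D ^ 4 * dil 5 D ^ 2 + D ^ 2 * dil 5 D ^ 4 + dil 5 D ^ 6 = D * dil 5 D := by
    rw [← L5]
    linear_combination (-(3 * D ^ 5 * dil 5 D + 7 * D ^ 4 * dil 5 D ^ 2 +
      10 * D ^ 3 * dil 5 D ^ 3 + 7 * D ^ 2 * dil 5 D ^ 4 + 3 * D * dil 5 D ^ 5)) * two_zero
  have e1 : D ^ (n + 6) = dil 5 D * D ^ (n + 1) + dil 5 (D ^ 2) * D ^ (n + 4) +
      dil 5 (D ^ 4) * D ^ (n + 2) + dil 5 (D ^ 6) * D ^ n := by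
    rw [dil_pow h5, dil_pow h5, dil_pow h5]
    linear_combination D ^ n * e - D ^ n * (D ^ 4 * dil 5 D ^ 2 + D ^ 2 * dil 5 D ^ 4 +
      dil 5 D ^ 6) * two_zero
  have e2 : dil 5 (D ^ (n + 6)) = D * dil 5 (D ^ (n + 1)) + D ^ 2 * dil 5 (D ^ (n + 4)) +
      D ^ 4 * dil 5 (D ^ (n + 2)) + D ^ 6 * dil 5 (D ^ n) := by
    simp only [dil_pow h5]
    linear_combination dil 5 D ^ n * e - dil 5 D ^ n * (D ^ 6 + D ^ 4 * dil 5 D ^ 2 +
      D ^ 2 * dil 5 D ^ 4) * two_zero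
  rw [hec, e2, e1, U_add, U_add, U_add, U_dil_mul h5, U_dil_mul h5, U_dil_mul h5, U_dil_mul h5,
    hec, hec, hec, hec]
  ring

/-! ### The start values -/

theorem coeff_D_zero : coeff 0 D = 0 := by
  rw [D, coeff_mk, if_neg]
  rintro ⟨a, ha, h⟩
  have : a = 0 := by
    have := h.symm
    exact pow_eq_zero_iff (two_ne_zero) |>.1 this
  subst this
  simp at ha

theorem coeff_D_one : coeff 1 D = 1 := by
  rw [D, coeff_mk, if_pos ⟨1, odd_one, by norm_num⟩]

theorem coeff_D_pow_self (n : ℕ) : coeff n (D ^ n) = 1 := by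
  have hX : (X : PowerSeries (ZMod 2)) ∣ D := X_dvd_iff.2 (by
    rw [← coeff_zero_eq_constantCoeff]; exact coeff_D_zero)
  obtain ⟨E, hE⟩ := hX
  have h1 : constantCoeff E = 1 := by
    have := coeff_D_one
    rw [hE, show (1 : ℕ) = 0 + 1 from rfl, coeff_succ_X_mul] at this
    rwa [coeff_zero_eq_constantCoeff] at this
  rw [hE, mul_pow, coeff_X_pow_mul', if_pos le_rfl, Nat.sub_self, coeff_zero_eq_constantCoeff,
    map_pow, h1, one_pow]

theorem D_ne_zero : D ≠ 0 := by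
  intro h
  have := coeff_D_one
  rw [h, map_zero] at this
  exact zero_ne_one this

theorem hec_D_four {l : ℕ} (hl : l.Prime) (h2 : l ≠ 2) : hec l (D ^ 4) = 0 := by
  have ho := hl.odd_of_ne_two h2
  rw [show D ^ 4 = (D ^ 2) ^ 2 by ring, hec_sq ho, hec_sq ho, hec_D hl h2]
  simp

theorem hec_D_two {l : ℕ} (hl : l.Prime) (h2 : l ≠ 2) : hec l (D ^ 2) = 0 := by
  have ho := hl.odd_of_ne_two h2
  rw [hec_sq ho, hec_D hl h2]
  simp

theorem hec3_three (L3 : (D + dil 3 D) ^ 4 = D * dil 3 D) : hec 3 (D ^ 3) = D := by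
  have p3 : Nat.Prime 3 := by norm_num
  have h1 : hec 3 (D ^ 3) ^ 2 = D * hec 3 (D ^ 3) := by
    rw [← hec_sq (by decide), ← pow_mul, show 3 * 2 = 2 + 4 from rfl, hec3_rec L3,
      hec_D_two p3 (by norm_num)]
    ring
  have h2 : hec 3 (D ^ 3) * (hec 3 (D ^ 3) - D) = 0 := by linear_combination h1
  rcases mul_eq_zero.1 h2 with h | h
  · exfalso
    have h3 : coeff 1 (hec 3 (D ^ 3)) = 1 := by
      rw [coeff_hec, if_neg (by norm_num), mul_one, coeff_D_pow_self, add_zero]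
    rw [h, map_zero] at h3
    exact zero_ne_one h3
  · exact sub_eq_zero.1 h

theorem hec5_three (L5 : (D + dil 5 D) ^ 6 = D * dil 5 D) : hec 5 (D ^ 3) = 0 := by
  have p5 : Nat.Prime 5 := by norm_num
  have h1 : hec 5 (D ^ 3) ^ 2 = 0 := by
    rw [← hec_sq (by decide), ← pow_mul, show 3 * 2 = 0 + 6 from rfl, hec5_rec L5]
    rw [show 0 + 1 = 1 from rfl, show 0 + 4 = 4 from rfl, show 0 + 2 = 2 from rfl, pow_one,
      hec_D p5 (by norm_num), hec_D_four p5 (by norm_num), hec_D_two p5 (by norm_num),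
      pow_zero, hec_one (by norm_num)]
    ring
  exact pow_eq_zero_iff (two_ne_zero) |>.1 h1

theorem hec5_six (L5 : (D + dil 5 D) ^ 6 = D * dil 5 D) : hec 5 (D ^ 6) = 0 := by
  rw [show D ^ 6 = (D ^ 3) ^ 2 by ring, hec_sq (by decide), hec5_three L5]
  simp

theorem hec5_five (L5 : (D + dil 5 D) ^ 6 = D * dil 5 D) : hec 5 (D ^ 5) = D := by
  have p5 : Nat.Prime 5 := by norm_num
  have h8 : hec 5 (D ^ 8) = 0 := by
    rw [show D ^ 8 = (D ^ 4) ^ 2 by ring, hec_sq (by decide), hec_D_four p5 (by norm_num)]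
    simp
  have h1 : hec 5 (D ^ 5) ^ 2 = D * hec 5 (D ^ 5) := by
    rw [← hec_sq (by decide), ← pow_mul, show 5 * 2 = 4 + 6 from rfl, hec5_rec L5]
    rw [show 4 + 4 = 8 from rfl, show 4 + 2 = 6 from rfl, h8, hec5_six L5,
      hec_D_four p5 (by norm_num)]
    ring
  have h2 : hec 5 (D ^ 5) * (hec 5 (D ^ 5) - D) = 0 := by linear_combination h1
  rcases mul_eq_zero.1 h2 with h | h
  · exfalso
    have h3 : coeff 1 (hec 5 (D ^ 5)) = 1 := by
      rw [coeff_hec, if_neg (by norm_num), mul_one, coeff_D_pow_self, add_zero]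
    rw [h, map_zero] at h3
    exact zero_ne_one h3
  · exact sub_eq_zero.1 h

end Vale.Agent.P022.H790.A
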