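import Vale.Agent.P022.H30.Op
import Vale.Agent.P022.H790.A3

/-!
# The polynomials `T_3 (Δ^n)` and `T_5 (Δ^n)` modulo two

The two modular equations give polynomials `u3 n`, `u5 n` with `T_l (D^n) = u_l n (D)`, which
lower the content of the exponents; with them power series in `T_3`, `T_5` act faithfully.
-/

namespace Vale.Agent.P022.H790.A

open Polynomial Vale.Agent.P022

/-- `T_3 (Δ^n)` as a polynomial in `Δ`. -/
noncomputable def u3 : ℕ → (ZMod 2)[X]
  | 0 => 0
  | 1 => 0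
  | 2 => 0
  | 3 => X
  | n + 4 => X * u3 (n + 1) + X ^ 4 * u3 n

/-- `T_5 (Δ^n)` as a polynomial in `Δ`. -/
noncomputable def u5 : ℕ → (ZMod 2)[X]
  | 0 => 0
  | 1 => 0
  | 2 => 0
  | 3 => 0
  | 4 => 0
  | 5 => X
  | n + 6 => X * u5 (n + 1) + X ^ 2 * u5 (n + 4) + X ^ 4 * u5 (n + 2) + X ^ 6 * u5 n

theorem u3_rec (n : ℕ) : u3 (n + 4) = X * u3 (n + 1) + X ^ 4 * u3 n := by rw [u3]

theorem u5_rec (n : ℕ) : u5 (n + 6) = X * u5 (n + 1) + X ^ 2 * u5 (n + 4) +
    X ^ 4 * u5 (n + 2) + X ^ 6 * u5 n := by rw [u5]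

theorem D_eq : H30.D = D := rfl

theorem hec_eq (l : ℕ) (f : PowerSeries (ZMod 2)) : H30.hec l f = hec l f := rfl

theorem mem_support_X {m : ℕ} (h : m ∈ (X : (ZMod 2)[X]).support) : m = 1 := by
  rw [mem_support_iff, coeff_X] at h
  by_contra hc
  rw [if_neg (fun hh => hc hh.symm)] at h
  exact h rfl

theorem u3_start : ∀ n < 4, ∀ m ∈ (u3 n).support, m < n ∧ m % 2 = n % 2 := by
  intro n hn m hm
  interval_cases n
  · simp [u3] at hm
  · simp [u3] at hm
  · simp [u3] at hm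
  · rw [u3] at hm
    have := mem_support_X hm
    omega

theorem u5_start : ∀ n < 6, ∀ m ∈ (u5 n).support, m < n ∧ m % 2 = n % 2 := by
  intro n hn m hm
  interval_cases n
  · simp [u5] at hm
  · simp [u5] at hm
  · simp [u5] at hm
  · simp [u5] at hm
  · simp [u5] at hm
  · rw [u5] at hm
    have := mem_support_X hm
    omega

theorem low_u3 : H30.Low u3 := H30.low3 u3_rec u3_start

theorem low_u5 : H30.Low u5 := H30.low5 u5_rec u5_start

theorem parity_u3 (n : ℕ) : ∀ m ∈ (u3 n).support, m % 2 = n % 2 := fun m hm =>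
  (H30.deg3 u3_rec u3_start n m hm).2

theorem parity_u5 (n : ℕ) : ∀ m ∈ (u5 n).support, m % 2 = n % 2 := fun m hm =>
  (H30.deg5 u5_rec u5_start n m hm).2

theorem ev_X : H30.ev X = D := by
  have := H30.ev_X_pow 1
  rwa [pow_one, pow_one] at this

theorem ev_u3 (L3 : (D + dil 3 D) ^ 4 = D * dil 3 D) (n : ℕ) :
    H30.ev (u3 n) = H30.hec 3 (H30.D ^ n) := by
  rw [hec_eq, D_eq]
  have p3 : Nat.Prime 3 := by norm_num
  induction n using Nat.strong_induction_on with
  | _ n ih =>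
    by_cases hn : n < 4
    · interval_cases n
      · rw [u3, map_zero, pow_zero, hec_one (by norm_num)]
      · rw [u3, map_zero, pow_one, hec_D p3 (by norm_num)]
      · rw [u3, map_zero, hec_D_two p3 (by norm_num)]
      · rw [u3, ev_X, hec3_three L3]
    · obtain ⟨k, rfl⟩ : ∃ k, n = k + 4 := ⟨n - 4, by omega⟩
      rw [u3_rec, map_add, map_mul, map_mul, map_pow, ev_X, ih (k + 1) (by omega),
        ih k (by omega), hec3_rec L3]

theorem ev_u5 (L5 : (D + dil 5 D) ^ 6 = D * dil 5 D) (n : ℕ) :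
    H30.ev (u5 n) = H30.hec 5 (H30.D ^ n) := by
  rw [hec_eq, D_eq]
  have p5 : Nat.Prime 5 := by norm_num
  induction n using Nat.strong_induction_on with
  | _ n ih =>
    by_cases hn : n < 6
    · interval_cases n
      · rw [u5, map_zero, pow_zero, hec_one (by norm_num)]
      · rw [u5, map_zero, pow_one, hec_D p5 (by norm_num)]
      · rw [u5, map_zero, hec_D_two p5 (by norm_num)]
      · rw [u5, map_zero, hec5_three L5]
      · rw [u5, map_zero, hec_D_four p5 (by norm_num)]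
      · rw [u5, ev_X, hec5_five L5]
    · obtain ⟨k, rfl⟩ : ∃ k, n = k + 6 := ⟨n - 6, by omega⟩
      rw [u5_rec, map_add, map_add, map_add, map_mul, map_mul, map_mul, map_mul, map_pow,
        map_pow, map_pow, ev_X, ih (k + 1) (by omega), ih k (by omega), ih (k + 4) (by omega),
        ih (k + 2) (by omega), hec5_rec L5]

/-- `T_3` on the polynomials in `Δ` modulo two. -/
noncomputable def T3 : Module.End (ZMod 2) (ZMod 2)[X] := H30.opOf u3

/-- `T_5` on the polynomials in `Δ` modulo two. -/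
noncomputable def T5 : Module.End (ZMod 2) (ZMod 2)[X] := H30.opOf u5

theorem lows_T3 : H30.Lows T3 := H30.opOf_lows low_u3

theorem lows_T5 : H30.Lows T5 := H30.opOf_lows low_u5

theorem odd_T3 {f : (ZMod 2)[X]} (hf : H30.IsOddP f) : H30.IsOddP (T3 f) :=
  H30.opOf_odd parity_u3 hf

theorem odd_T5 {f : (ZMod 2)[X]} (hf : H30.IsOddP f) : H30.IsOddP (T5 f) :=
  H30.opOf_odd parity_u5 hf

theorem ev_T3 (L3 : (D + dil 3 D) ^ 4 = D * dil 3 D) (f : (ZMod 2)[X]) :
    H30.ev (T3 f) = H30.hec 3 (H30.ev f) := H30.ev_opOf (ev_u3 L3) f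

theorem ev_T5 (L5 : (D + dil 5 D) ^ 6 = D * dil 5 D) (f : (ZMod 2)[X]) :
    H30.ev (T5 f) = H30.hec 5 (H30.ev f) := H30.ev_opOf (ev_u5 L5) f

theorem commute_T3_T5 (L3 : (D + dil 3 D) ^ 4 = D * dil 3 D)
    (L5 : (D + dil 5 D) ^ 6 = D * dil 5 D) : Commute T3 T5 :=
  H30.opOf_comm (by norm_num) (by norm_num) (by norm_num) (ev_u3 L3) (ev_u5 L5)

/-- **Power series in `T_3`, `T_5` act faithfully on the odd polynomials in `Δ` modulo two**, if
the first coefficient of the images under the monomials in `T_3`, `T_5` detects them. -/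
theorem faithful_T (L3 : (D + dil 3 D) ^ 4 = D * dil 3 D)
    (L5 : (D + dil 5 D) ^ 6 = D * dil 5 D)
    (ha : ∀ f, H30.IsOddP f →
      (∀ i j, PowerSeries.coeff 1 ((H30.hecL 3 ^ i * H30.hecL 5 ^ j) (H30.ev f)) = 0) → f = 0)
    (P : ℕ → ℕ → ZMod 2)
    (hP : ∀ f, H30.IsOddP f → ∀ N, (∀ n ∈ f.support, H30.cont n < N) →
      ∑ p ∈ Finset.range N, ∑ q ∈ Finset.range N,
        P p q • (H30.hecL 3 ^ p * H30.hecL 5 ^ q) (H30.ev f) = 0) (p q : ℕ) : P p q = 0 :=
  H30.faithful_hec (ev_u3 L3) (ev_u5 L5) low_u3 low_u5 ha P hP p q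

end Vale.Agent.P022.H790.A
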